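import Vale.Agent.P042.Curve.Series.Zeros
import Vale.Agent.P042.Upper.Weil.LPoly

/-!
Adding a function of lower degree with top form `c x ^ (M - d)` to one with top form `x ^ M` moves
only the `d`th elementary symmetric function of the roots of the norm, by `e c`.
-/

open Finset Polynomial

namespace Vale.Agent.P042.Curve

open Vale.Agent.P042.Upper

noncomputable section

variable {p : ℕ} [Fact p.Prime] (A : Comp p)

/-- Top form `c x ^ M`. -/
def HasTop (M : ℕ) (f : (Kbar p)[X][X]) (c : Kbar p) : Prop :=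
  (f.coeff 0).coeff M = c ∧ ∀ j, 1 ≤ j → j < edeg A → (f.coeff j).coeff (M - j) = 0

variable {A} {M : ℕ}

/-- The flipped component splits over power series. -/
lemma flip_splits : ((flip (edeg A) (pK A)).map (xmap 0)).Splits ∧
    Multiset.card ((flip (edeg A) (pK A)).map (xmap 0)).roots = edeg A := by
  classical
  obtain ⟨hm, hd⟩ := flip_monic A
  set Q := (flip (edeg A) (pK A)).map (xmap 0)
  have hQ : Q.Monic := hm.map _
  have hQd : Q.natDegree = edeg A := by rw [hm.natDegree_map, hd]
  set q := (flip (edeg A) (pK A)).map (evalRingHom 0)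
  have hq : Q.map PowerSeries.constantCoeff = q := by
    rw [Polynomial.map_map, constantCoeff_xmap]
  have hnd : q.roots.Nodup := top_roots_nodup A
  have hq0 : q ≠ 0 := (hm.map _).ne_zero
  have hex : ∀ y ∈ q.roots, ∃ Y, Q.eval Y = 0 ∧ PowerSeries.constantCoeff Y = y := by
    intro y hy
    refine Series.exists_root_lift Q hQ y ?_ ?_ <;> rw [hq]
    · exact (mem_roots hq0).1 hy
    · intro h
      have h2 : 1 < q.rootMultiplicity y :=
        (one_lt_rootMultiplicity_iff_isRoot hq0).2 ⟨(mem_roots hq0).1 hy, h⟩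
      rw [← count_roots] at h2
      have := Multiset.nodup_iff_count_le_one.1 hnd y
      omega
  choose r hr using hex
  have hcard : edeg A ≤ Q.roots.toFinset.card := by
    have : q.roots.toFinset.card = edeg A := by
      rw [Multiset.toFinset_card_of_nodup hnd, ← (IsAlgClosed.splits q).natDegree_eq_card_roots,
        hm.natDegree_map, hd]
    rw [← this]
    refine Finset.card_le_card_of_injOn
      (fun y => if hy : y ∈ q.roots then r y hy else 0) (fun y hy => ?_) fun a ha b hb hab => ?_
    · rw [Finset.mem_coe, Multiset.mem_toFinset] at hy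
      simp only [dif_pos hy, Finset.mem_coe, Multiset.mem_toFinset]
      exact (mem_roots hQ.ne_zero).2 (hr y hy).1
    · rw [Finset.mem_coe, Multiset.mem_toFinset] at ha hb
      simp only [dif_pos ha, dif_pos hb] at hab
      rw [← (hr a ha).2, ← (hr b hb).2, hab]
  have hle := hcard.trans (Multiset.toFinset_card_le _)
  have hup := card_roots' Q
  exact ⟨splits_iff_card_roots.2 (by omega), by omega⟩

lemma flip_add (m : ℕ) (f g : (Kbar p)[X][X]) : flip m (f + g) = flip m f + flip m g := by
  ext j : 1
  simp only [coeff_flip, coeff_add, reflect_add]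

lemma flip_shift {d : ℕ} (hd : d ≤ M) {g : (Kbar p)[X][X]} {e : ℕ} (hg : g ∈ LSpace p e (M - d)) :
    flip M g = C (X ^ d) * flip (M - d) g := by
  ext j i
  rw [coeff_flip, coeff_C_mul, coeff_flip, coeff_X_pow_mul', coeff_reflect]
  rcases lt_or_ge (M - d) j with hj | hj
  · have : g.coeff j = 0 := by
      ext l; simpa using mem_LSpace.1 hg l j (Or.inr (by omega))
    simp [this]
  have hz : ∀ l, M - d - j < l → (g.coeff j).coeff l = 0 :=
    fun l hl => mem_LSpace.1 hg l j (Or.inr (by omega))
  split_ifs with hi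
  · rw [coeff_reflect]
    rcases le_or_gt i (M - j) with h | h
    · rw [revAt_le h, revAt_le (show i - d ≤ M - d - j by omega)]
      congr 1; omega
    · rw [revAt_eq_self_of_lt h, revAt_eq_self_of_lt (show M - d - j < i - d by omega),
        hz i (by omega), hz (i - d) (by omega)]
  · rw [revAt_le (show i ≤ M - j by omega), hz _ (by omega)]

lemma flip_at_zero {f : (Kbar p)[X][X]} (hf : f ∈ LSpace p (edeg A) M) {c : Kbar p}
    (ht : HasTop A M f c) : (flip M f).map (evalRingHom 0) = C c := by
  ext j : 1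
  rw [coeff_map, coeff_flip, coe_evalRingHom, ← coeff_zero_eq_eval_zero, coeff_reflect,
    revAt_le (Nat.zero_le _), Nat.sub_zero, coeff_C]
  split_ifs with h
  · rw [h]; exact ht.1
  · rcases lt_or_ge j (edeg A) with hj | hj
    · exact ht.2 j (by omega) hj
    · exact mem_LSpace.1 hf _ j (Or.inl hj)

lemma prod_add_X_pow {R : Type*} [CommRing R] {ι : Type*} (s : Multiset ι)
    (a b : ι → PowerSeries R) (d : ℕ) (hd : 1 ≤ d) (c : R)
    (ha : ∀ i ∈ s, PowerSeries.constantCoeff (a i) = 1)
    (hb : ∀ i ∈ s, PowerSeries.constantCoeff (b i) = c) :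
    ∃ t, (s.map fun i => a i + PowerSeries.X ^ d * b i).prod = (s.map a).prod + PowerSeries.X ^ d * t ∧
      PowerSeries.constantCoeff t = Multiset.card s * c := by
  induction s using Multiset.induction_on with
  | empty => exact ⟨0, by simp, by simp⟩
  | cons i s ih =>
    obtain ⟨t, ht, htc⟩ := ih (fun j hj => ha j (Multiset.mem_cons_of_mem hj))
      (fun j hj => hb j (Multiset.mem_cons_of_mem hj))
    refine ⟨a i * t + b i * (s.map a).prod + PowerSeries.X ^ d * (b i * t), ?_, ?_⟩
    · rw [Multiset.map_cons, Multiset.prod_cons, ht, Multiset.map_cons, Multiset.prod_cons]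
      ring
    · simp only [map_add, map_mul, map_pow, PowerSeries.constantCoeff_X, map_multiset_prod,
        Multiset.map_map, zero_pow (show d ≠ 0 by omega), zero_mul, add_zero, htc,
        ha i (Multiset.mem_cons_self _ _), hb i (Multiset.mem_cons_self _ _), one_mul,
        Multiset.card_cons, Nat.cast_add, Nat.cast_one]
      rw [Multiset.prod_eq_one fun x hx => ?_]
      · ring
      · obtain ⟨j, hj, rfl⟩ := Multiset.mem_map.1 hx
        exact ha j (Multiset.mem_cons_of_mem hj)

lemma coeff_xmap_zero (q : (Kbar p)[X]) (i : ℕ) : PowerSeries.coeff i (xmap 0 q) = q.coeff i := by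
  rw [show xmap (0 : Kbar p) = Polynomial.coeToPowerSeries.ringHom by ext a <;> simp [xmap]]
  simp

variable {f h₀ : (Kbar p)[X][X]} {d : ℕ} {c : Kbar p}

lemma NmInf_coeff_zero (hf : f ∈ LSpace p (edeg A) M) (ht : HasTop A M f 1) :
    (NmInf A M f).coeff 0 = 1 := by
  rw [coeff_zero_eq_eval_zero]
  refine (NmInf_map A (evalRingHom 0) (natDegree_lt_of_mem (one_le_edeg A) hf)
    (IsAlgClosed.splits _)).trans ?_
  simp only [flip_at_zero hf ht, eval_C, Multiset.map_const', Multiset.prod_replicate, one_pow]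

lemma Nm_top (hf : f ∈ LSpace p (edeg A) M) (ht : HasTop A M f 1) :
    (Nm A f).coeff (edeg A * M) = 1 ∧ (Nm A f).natDegree = edeg A * M ∧ (Nm A f).Monic := by
  obtain ⟨h1, h2⟩ := NmInf_eq A hf
  have h := NmInf_coeff_zero hf ht
  rw [h2, coeff_reflect, revAt_le (Nat.zero_le _), Nat.sub_zero] at h
  have hd : (Nm A f).natDegree = edeg A * M :=
    le_antisymm h1 (le_natDegree_of_ne_zero (by rw [h]; exact one_ne_zero))
  exact ⟨h, hd, by rw [Monic, leadingCoeff, hd, h]⟩

lemma NmInf_shift (hd : 1 ≤ d) (hdM : d ≤ M) (hf : f ∈ LSpace p (edeg A) M) (ht : HasTop A M f 1)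
    (hh : h₀ ∈ LSpace p (edeg A) (M - d)) (hht : HasTop A (M - d) h₀ c) {i : ℕ} (hi : i ≤ d) :
    (NmInf A M (f + h₀)).coeff i =
      (NmInf A M f).coeff i + if i = d then (edeg A : Kbar p) * c else 0 := by
  obtain ⟨hs, hcard⟩ := flip_splits (A := A)
  have hfd := natDegree_lt_of_mem (one_le_edeg A) hf
  have hgd : (f + h₀).natDegree ≤ edeg A - 1 :=
    (natDegree_add_le _ _).trans (max_le hfd (natDegree_lt_of_mem (one_le_edeg A) hh))
  set S := ((flip (edeg A) (pK A)).map (xmap 0)).roots
  have hcc : ∀ (g : (Kbar p)[X][X]) (Y : PowerSeries (Kbar p)),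
      PowerSeries.constantCoeff ((g.map (xmap 0)).eval Y) =
        (g.map (evalRingHom 0)).eval (PowerSeries.constantCoeff Y) := by
    intro g Y
    rw [← eval₂_hom, ← eval_map, Polynomial.map_map, constantCoeff_xmap]
  obtain ⟨t, ht1, ht2⟩ := prod_add_X_pow S (fun Y => ((flip M f).map (xmap 0)).eval Y)
    (fun Y => ((flip (M - d) h₀).map (xmap 0)).eval Y) d hd c
    (fun Y _ => by rw [hcc, flip_at_zero hf ht, eval_C])
    (fun Y _ => by rw [hcc, flip_at_zero hh hht, eval_C])
  have h1 : xmap 0 (NmInf A M (f + h₀)) = xmap 0 (NmInf A M f) + PowerSeries.X ^ d * t := by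
    rw [NmInf_map A (xmap 0) hfd hs, NmInf_map A (xmap 0) hgd hs, ← ht1]
    congr 1
    refine Multiset.map_congr rfl fun Y _ => ?_
    rw [flip_add, flip_shift hdM hh, Polynomial.map_add, Polynomial.map_mul, map_C, eval_add,
      eval_mul, eval_C, map_pow, show xmap (0 : Kbar p) X = PowerSeries.X by simp [xmap]]
  rw [← coeff_xmap_zero, ← coeff_xmap_zero (NmInf A M f), h1, map_add,
    PowerSeries.coeff_X_pow_mul']
  congr 1
  split_ifs <;> first | omega | rfl | skip
  rw [show i - d = 0 by omega, PowerSeries.coeff_zero_eq_constantCoeff_apply, ht2, hcard]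

/-- The sum of `g` over the roots of the norm moves by a constant. -/
theorem sum_roots_shift (g : (ZMod p)[X]) (hgd : g.natDegree = d) (hd : 1 ≤ d) (hdM : d ≤ M)
    (hf : f ∈ LSpace p (edeg A) M) (ht : HasTop A M f 1)
    (hh : h₀ ∈ LSpace p (edeg A) (M - d)) (hht : HasTop A (M - d) h₀ c)
    (ht' : HasTop A M (f + h₀) 1) :
    ((Nm A (f + h₀)).roots.map fun z => (WeilProof.fK p g).eval z).sum =
      ((Nm A f).roots.map fun z => (WeilProof.fK p g).eval z).sum -
        (WeilProof.fK p g).coeff d * ((d : Kbar p) * ((edeg A : Kbar p) * c)) := by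
  have hf' : f + h₀ ∈ LSpace p (edeg A) M := by
    refine Submodule.add_mem _ hf (mem_LSpace.2 fun i j hij => mem_LSpace.1 hh i j ?_)
    omega
  have hdeM : d ≤ edeg A * M := hdM.trans (Nat.le_mul_of_pos_left _ (one_le_edeg A))
  have hcc : ∀ q ∈ LSpace p (edeg A) M, HasTop A M q 1 → ∀ a, a ≤ edeg A * M →
      WeilProof.cc (Nm A q).roots a = (NmInf A M q).coeff a := by
    intro q hq hqt a ha
    obtain ⟨-, h2, h3⟩ := Nm_top hq hqt
    have hs : (Nm A q).Splits := IsAlgClosed.splits _
    have hc : Multiset.card (Nm A q).roots = edeg A * M := by rw [← hs.natDegree_eq_card_roots, h2]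
    rw [← WeilProof.coeff_prod_eq_cc _ (hc.symm ▸ ha), ← hs.eq_prod_roots_of_monic h3, hc,
      (NmInf_eq A hq).2, coeff_reflect, revAt_le ha]
  set R := (Nm A f).roots
  set R' := (Nm A (f + h₀)).roots
  have hpp : ∀ k, 1 ≤ k → k ≤ d → WeilProof.pp R' k = WeilProof.pp R k -
      if k = d then (d : Kbar p) * ((edeg A : Kbar p) * c) else 0 := by
    intro k
    induction k using Nat.strong_induction_on with
    | _ k ih =>
      intro hk1 hk
      obtain ⟨k, rfl⟩ : ∃ k', k = k' + 1 := ⟨k - 1, by omega⟩
      have h1 := WeilProof.newton R (k + 1)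
      have h2 := WeilProof.newton R' (k + 1)
      rw [Finset.sum_range_succ', WeilProof.cc_zero, one_mul, Nat.sub_zero] at h1 h2
      have h3 : ∀ a ∈ range k, WeilProof.cc R' (a + 1) * WeilProof.pp R' (k + 1 - (a + 1)) =
          WeilProof.cc R (a + 1) * WeilProof.pp R (k + 1 - (a + 1)) := by
        intro a ha
        rw [Finset.mem_range] at ha
        rw [hcc _ hf' ht' _ (by omega), NmInf_shift hd hdM hf ht hh hht (by omega),
          if_neg (by omega), add_zero, ← hcc _ hf ht _ (by omega),
          ih _ (by omega) (by omega) (by omega), if_neg (by omega), sub_zero]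
      rw [Finset.sum_congr rfl h3, hcc _ hf' ht' _ (by omega),
        NmInf_shift hd hdM hf ht hh hht hk, ← hcc _ hf ht _ (by omega)] at h2
      split_ifs with h
      · rw [if_pos h] at h2
        rw [← h]
        linear_combination h2 - h1
      · rw [if_neg h] at h2
        linear_combination h2 - h1
  have hS : ∀ T : Multiset (Kbar p), (T.map fun z => (WeilProof.fK p g).eval z).sum =
      ∑ k ∈ range (d + 1), (WeilProof.fK p g).coeff k * WeilProof.pp T k := by
    intro T
    simp only [WeilProof.pp, ← Multiset.sum_map_mul_left]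
    rw [← Multiset.sum_map_sum]
    refine congrArg Multiset.sum (Multiset.map_congr rfl fun z _ => ?_)
    exact eval_eq_sum_range' (by rw [WeilProof.fK, natDegree_map, hgd]; omega) z
  have hcard : Multiset.card R' = Multiset.card R := by
    rw [← (IsAlgClosed.splits _).natDegree_eq_card_roots,
      ← (IsAlgClosed.splits _).natDegree_eq_card_roots, (Nm_top hf ht).2.1, (Nm_top hf' ht').2.1]
  rw [hS, hS, Finset.sum_range_succ, Finset.sum_range_succ, hpp d hd le_rfl, if_pos rfl,
    Finset.sum_congr rfl fun k hk => ?_]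
  · rw [mul_sub, ← add_sub_assoc]
  · rcases Nat.eq_zero_or_pos k with rfl | hk1
    · simp [WeilProof.pp, hcard]
    · rw [hpp k hk1 (by have := Finset.mem_range.1 hk; omega),
        if_neg (by have := Finset.mem_range.1 hk; omega), sub_zero]

end

end Vale.Agent.P042.Curve
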