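import Mathlib

/-!
Over power series every simple root of the reduction of a monic polynomial lifts uniquely.
-/

open Finset Polynomial

namespace Vale.Agent.P042.Curve.Series

noncomputable section

variable {K : Type*} [Field K]

lemma exists_root_lift (Q : (PowerSeries K)[X]) (hQ : Q.Monic) (y : K)
    (h0 : (Q.map PowerSeries.constantCoeff).eval y = 0)
    (h1 : (derivative (Q.map PowerSeries.constantCoeff)).eval y ≠ 0) :
    ∃ Y, Q.eval Y = 0 ∧ PowerSeries.constantCoeff Y = y := by
  have hy : PowerSeries.constantCoeff (PowerSeries.C y : PowerSeries K) = y := by simp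
  obtain ⟨Y, hY, hY'⟩ := HenselianRing.is_henselian (I := Ideal.span {(PowerSeries.X : PowerSeries K)})
    Q hQ (PowerSeries.C y) (by
      rw [Ideal.mem_span_singleton, PowerSeries.X_dvd_iff, ← Polynomial.eval₂_hom, hy,
        ← Polynomial.eval_map]
      exact h0) (by
      refine (PowerSeries.isUnit_iff_constantCoeff.2 ?_).map _
      rw [← Polynomial.eval₂_hom, hy, ← Polynomial.eval_map, ← derivative_map]
      exact isUnit_iff_ne_zero.2 h1)
  refine ⟨Y, hY, ?_⟩
  rw [Ideal.mem_span_singleton, PowerSeries.X_dvd_iff, map_sub, hy, sub_eq_zero] at hY'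
  exact hY'

lemma root_unique (Q : (PowerSeries K)[X]) {Y Y' : PowerSeries K} (hY : Q.eval Y = 0)
    (hY' : Q.eval Y' = 0) (hc : PowerSeries.constantCoeff Y = PowerSeries.constantCoeff Y')
    (h1 : (derivative (Q.map PowerSeries.constantCoeff)).eval (PowerSeries.constantCoeff Y) ≠ 0) :
    Y = Y' := by
  by_contra hne
  obtain ⟨Q₁, hQ₁⟩ : X - C Y ∣ Q := dvd_iff_isRoot.2 hY
  have h2 : Q₁.eval Y' = 0 := by
    have h3 := hY'
    rw [hQ₁, eval_mul, eval_sub, eval_X, eval_C, mul_eq_zero, sub_eq_zero] at h3
    exact h3.resolve_left (Ne.symm hne)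
  apply h1
  rw [hQ₁, Polynomial.map_mul, derivative_mul, eval_add, eval_mul, eval_mul, Polynomial.map_sub,
    map_X, map_C, derivative_sub, derivative_X, derivative_C, sub_zero, eval_one, one_mul, eval_sub,
    eval_X, eval_C, sub_self, zero_mul, add_zero, hc, eval_map, eval₂_hom, h2, map_zero]

end

end Vale.Agent.P042.Curve.Series
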