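import Vale.Agent.P042.Curve.Local
import Vale.Agent.P042.Curve.Series.Hensel

/-!
The component over the algebraic closure: its degree, its good points and the branches through them.
-/

open Finset Polynomial

namespace Vale.Agent.P042.Curve

open Vale.Agent.P042.Upper

noncomputable section

variable {p : ℕ} [Fact p.Prime] (A : Comp p)

/-- The polynomial over the algebraic closure. -/
def hK : (Kbar p)[X] := A.h.map (algebraMap (ZMod p) (Kbar p))

lemma eval_hK (x : Kbar p) : (hK A).eval x = aeval x A.h := by rw [hK, eval_map, aeval_def]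

lemma natDegree_hK : (hK A).natDegree = A.h.natDegree := natDegree_map _

lemma two_le_hK : 2 ≤ (hK A).natDegree := natDegree_hK A ▸ A.two_le

lemma hK_ne_zero : hK A ≠ 0 := fun h => by have := two_le_hK A; simp [h] at this

lemma natDegree_hK_add_C (c : Kbar p) : (hK A + C c).natDegree = A.h.natDegree := by
  rw [natDegree_add_C, natDegree_hK]

lemma derivative_hK_ne_zero : derivative (hK A) ≠ 0 := by
  intro h
  have hk := two_le_hK A
  have h1 := congrArg (fun q => coeff q ((hK A).natDegree - 1)) h
  simp only [coeff_derivative, coeff_zero, mul_eq_zero] at h1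
  rw [Nat.sub_add_cancel (by omega : 1 ≤ (hK A).natDegree), coeff_natDegree,
    leadingCoeff_eq_zero] at h1
  rcases h1 with h1 | h1
  · exact hK_ne_zero A h1
  · rw [← Nat.cast_add_one, Nat.sub_add_cancel (by omega : 1 ≤ (hK A).natDegree),
      CharP.cast_eq_zero_iff (Kbar p) p, natDegree_hK] at h1
    exact absurd (Nat.le_of_dvd (by have := A.two_le; omega) h1) (by have := A.deg_lt; omega)

lemma pK_monic : (pK A).Monic := A.monic.map _

lemma pK_dvd : pK A ∣ C (hK A) + (hK A).map C := by
  refine (Polynomial.map_dvd (mapRingHom (algebraMap (ZMod p) (Kbar p))) A.dvd).trans (dvd_of_eq ?_)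
  simp only [Polynomial.map_add, map_C, coe_mapRingHom, hK, Polynomial.map_map]
  congr 2
  ext a
  simp

lemma pK_map_eval (x : Kbar p) :
    (pK A).map (evalRingHom x) = A.P.map (eval₂RingHom (algebraMap (ZMod p) (Kbar p)) x) := by
  rw [pK, Polynomial.map_map]
  congr 1
  ext a <;> simp

lemma onCurve_iff {P : Kbar p × Kbar p} : OnCurve A P ↔ ev P (pK A) = 0 := by
  rw [OnCurve, ev]
  simp only [LinearMap.coe_mk, AddHom.coe_mk, pK_map_eval]

lemma onCurve_iff' {P : Kbar p × Kbar p} :
    OnCurve A P ↔ ((pK A).map (evalRingHom P.1)).eval P.2 = 0 := onCurve_iff A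

lemma one_le_edeg : 1 ≤ edeg A := by
  rw [edeg, Nat.one_le_iff_ne_zero]
  intro h
  have := (pK_monic A).natDegree_eq_zero.1 h
  exact A.irred.not_isUnit (by rw [← pK] at *; simp [this])

lemma fiber_dvd (x : Kbar p) :
    (pK A).map (evalRingHom x) ∣ hK A + C ((hK A).eval x) := by
  refine (Polynomial.map_dvd (evalRingHom x) (pK_dvd A)).trans (dvd_of_eq ?_)
  rw [Polynomial.map_add, map_C, Polynomial.map_map, add_comm]
  congr 1
  rw [show (evalRingHom x).comp C = RingHom.id (Kbar p) by ext a; simp, Polynomial.map_id]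

lemma edeg_le : edeg A ≤ A.h.natDegree := by
  have h0 : hK A + C ((hK A).eval 0) ≠ 0 := fun h => by
    have := natDegree_hK_add_C A ((hK A).eval 0); have := A.two_le; simp [h] at *; omega
  have := natDegree_le_of_dvd (fiber_dvd A 0) h0
  rwa [natDegree_hK_add_C, (pK_monic A).natDegree_map] at this

lemma fiber_deriv_ne_zero {x y : Kbar p} (hy : ((pK A).map (evalRingHom x)).eval y = 0)
    (hg : Good A (x, y)) : (derivative ((pK A).map (evalRingHom x))).eval y ≠ 0 := by
  obtain ⟨R, hR⟩ := fiber_dvd A x
  intro h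
  apply hg
  have := congrArg (fun q => (derivative q).eval y) hR
  simp only [derivative_add, derivative_C, add_zero, derivative_mul, eval_add, eval_mul, hy, h,
    zero_mul] at this
  rwa [hK, derivative_map, eval_map, ← aeval_def] at this

lemma mem_fiber {x y : Kbar p} :
    y ∈ ((pK A).map (evalRingHom x)).roots ↔ OnCurve A (x, y) := by
  rw [mem_roots ((pK_monic A).map _).ne_zero, IsRoot.def, onCurve_iff']

lemma mem_bad {P : Kbar p × Kbar p} : P ∈ bad A ↔ OnCurve A P ∧ ¬ Good A P := by
  classical
  obtain ⟨x, y⟩ := P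
  have h1 : ∀ c, c ∈ (derivative (hK A)).roots ↔ ¬ Good A (x, c) := by
    intro c
    rw [mem_roots (derivative_hK_ne_zero A), IsRoot.def, hK, derivative_map, eval_map, ← aeval_def,
      Good, not_not]
  have h2 : OnCurve A (x, y) → x ∈ (hK A + C (aeval y A.h)).roots := by
    intro h
    rw [mem_roots (fun h => ?_), IsRoot.def, eval_add, eval_C]
    · have := eval_dvd (x := y) (fiber_dvd A x)
      rw [(onCurve_iff' A).1 h, zero_dvd_iff, eval_add, eval_C, eval_hK] at this
      rw [add_comm]
      exact this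
    · have := natDegree_hK_add_C A (aeval y A.h)
      rw [h, natDegree_zero] at this
      have := A.two_le
      omega
  simp only [bad, Finset.mem_biUnion, Multiset.mem_toFinset, Finset.mem_image, Finset.mem_filter,
    Prod.mk.injEq]
  constructor
  · rintro ⟨c, hc, x', ⟨-, hx'⟩, rfl, rfl⟩
    exact ⟨hx', (h1 c).1 hc⟩
  · rintro ⟨h, h'⟩
    exact ⟨y, (h1 y).2 h', x, ⟨h2 h, h⟩, rfl, rfl⟩

lemma card_bad_le : (bad A).card ≤ A.h.natDegree ^ 3 := by
  classical
  rw [bad]
  refine (Finset.card_biUnion_le_card_mul _ _ A.h.natDegree fun c _ => ?_).trans ?_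
  · refine Finset.card_image_le.trans ((Finset.card_filter_le _ _).trans
      ((Multiset.toFinset_card_le _).trans ((card_roots' _).trans ?_)))
    exact (natDegree_hK_add_C A _).le
  · refine (Nat.mul_le_mul_right _ ((Multiset.toFinset_card_le _).trans ((card_roots' _).trans
      ((natDegree_derivative_le _).trans (Nat.sub_le _ _))))).trans ?_
    rw [natDegree_map, pow_succ, pow_two]
    exact Nat.mul_le_mul_right _ (Nat.le_mul_self _)

lemma exists_onCurve (x : Kbar p) : ∃ y, OnCurve A (x, y) := by
  obtain ⟨y, hy⟩ := IsAlgClosed.exists_root ((pK A).map (evalRingHom x)) (by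
    rw [degree_eq_natDegree ((pK_monic A).map _).ne_zero, (pK_monic A).natDegree_map]
    have := one_le_edeg A
    simp only [ne_eq, Nat.cast_eq_zero]
    rw [edeg] at this; omega)
  exact ⟨y, (mem_fiber A).1 ((mem_roots ((pK_monic A).map _).ne_zero).2 hy)⟩

lemma exists_good_points (S : Finset (Kbar p × Kbar p)) (n : ℕ) :
    ∃ T : Finset (Kbar p × Kbar p), T.card = n ∧ Disjoint T S ∧
      ∀ P ∈ T, Good A P ∧ OnCurve A P := by
  classical
  have hinf : ((((bad A) ∪ S).image Prod.fst : Finset (Kbar p)) : Set (Kbar p))ᶜ.Infinite :=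
    (Finset.finite_toSet _).infinite_compl
  obtain ⟨T, hT, hn⟩ := hinf.exists_subset_card_eq n
  choose yc hyc using exists_onCurve A
  refine ⟨T.image fun x => (x, yc x), ?_, ?_, ?_⟩
  · rw [Finset.card_image_of_injective _ (fun a b h => (Prod.mk.inj h).1), hn]
  · rw [Finset.disjoint_left]
    rintro P hP hPS
    obtain ⟨x, hx, rfl⟩ := Finset.mem_image.1 hP
    exact hT hx (Finset.mem_coe.2 (Finset.mem_image.2 ⟨_, Finset.mem_union_right _ hPS, rfl⟩))
  · rintro P hP
    obtain ⟨x, hx, rfl⟩ := Finset.mem_image.1 hP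
    refine ⟨?_, hyc x⟩
    by_contra h
    exact hT hx (Finset.mem_coe.2 (Finset.mem_image.2
      ⟨_, Finset.mem_union_left _ ((mem_bad A).2 ⟨hyc x, h⟩), rfl⟩))

/-! ### Branches -/

lemma constantCoeff_xmap (x : Kbar p) :
    (PowerSeries.constantCoeff).comp (xmap x) = evalRingHom x := by
  ext a <;> simp [xmap]

lemma reduce_pK (x : Kbar p) :
    ((pK A).map (xmap x)).map PowerSeries.constantCoeff = (pK A).map (evalRingHom x) := by
  rw [Polynomial.map_map, constantCoeff_xmap]

lemma constantCoeff_branch (P : Kbar p × Kbar p) :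
    PowerSeries.constantCoeff (branch A P) = P.2 := by
  classical
  rw [branch]
  split_ifs with h
  · exact h.choose_spec.2
  · simp

lemma branch_spec {P : Kbar p × Kbar p} (hg : Good A P) (hc : OnCurve A P) :
    ((pK A).map (xmap P.1)).eval (branch A P) = 0 ∧
      ∀ Y, ((pK A).map (xmap P.1)).eval Y = 0 → PowerSeries.constantCoeff Y = P.2 →
        Y = branch A P := by
  classical
  have h0 := (onCurve_iff' A).1 hc
  have h1 := fiber_deriv_ne_zero A h0 hg
  have h : ∃ Y, ((pK A).map (xmap P.1)).eval Y = 0 ∧ PowerSeries.constantCoeff Y = P.2 := by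
    refine Series.exists_root_lift _ ((pK_monic A).map _) P.2 ?_ ?_ <;> rw [reduce_pK]
    · exact h0
    · exact h1
  have hb : branch A P = h.choose := by rw [branch, dif_pos h]
  refine ⟨hb ▸ h.choose_spec.1, fun Y hY hY' => ?_⟩
  rw [hb]
  refine Series.root_unique _ hY h.choose_spec.1 (hY'.trans h.choose_spec.2.symm) ?_
  rw [reduce_pK, hY']
  exact h1

open scoped Classical in
/-- The good points above `x`. -/
def above (x : Kbar p) : Finset (Kbar p) :=
  ((pK A).map (evalRingHom x)).roots.toFinset.filter fun y => Good A (x, y)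

lemma mem_above {x y : Kbar p} : y ∈ above A x ↔ Good A (x, y) ∧ OnCurve A (x, y) := by
  classical
  rw [above, Finset.mem_filter, Multiset.mem_toFinset, mem_fiber, and_comm]

/-- The branches through the good points above `x` split off. -/
lemma exists_cofactor (x : Kbar p) : ∃ R : (PowerSeries (Kbar p))[X], R.Monic ∧
    (pK A).map (xmap x) = (∏ y ∈ above A x, (X - C (branch A (x, y)))) * R ∧
    ∀ y, (R.map PowerSeries.constantCoeff).eval y = 0 → (x, y) ∈ bad A := by
  classical
  set Q := (pK A).map (xmap x)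
  have hQ : Q.Monic := (pK_monic A).map _
  have hdvd : ∏ y ∈ above A x, (X - C (branch A (x, y))) ∣ Q := by
    rw [Finset.prod_eq_multiset_prod, show (above A x).val.map (fun y => X - C (branch A (x, y))) =
      ((above A x).val.map fun y => branch A (x, y)).map fun a => X - C a by
        rw [Multiset.map_map]; rfl]
    rw [Multiset.prod_X_sub_C_dvd_iff_le_roots hQ.ne_zero, Multiset.le_iff_subset]
    · intro Y hY
      obtain ⟨y, hy, rfl⟩ := Multiset.mem_map.1 hY
      obtain ⟨h1, h2⟩ := (mem_above A).1 hy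
      exact (mem_roots hQ.ne_zero).2 (branch_spec A h1 h2).1
    · refine (above A x).nodup.map fun a b h => ?_
      simpa [constantCoeff_branch] using congrArg PowerSeries.constantCoeff h
  obtain ⟨R, hR⟩ := hdvd
  have hm : (∏ y ∈ above A x, (X - C (branch A (x, y)))).Monic :=
    monic_prod_of_monic _ _ fun y _ => monic_X_sub_C _
  refine ⟨R, hm.of_mul_monic_left (hR ▸ hQ), hR, fun y hy => ?_⟩
  have hred : (pK A).map (evalRingHom x) =
      (∏ y ∈ above A x, (X - C y)) * R.map PowerSeries.constantCoeff := by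
    rw [← reduce_pK]
    show Q.map _ = _
    rw [hR, Polynomial.map_mul, Polynomial.map_prod]
    simp [constantCoeff_branch]
  have h0 : ((pK A).map (evalRingHom x)).eval y = 0 := by rw [hred, eval_mul, hy, mul_zero]
  refine (mem_bad A).2 ⟨(onCurve_iff' A).2 h0, fun hg => ?_⟩
  have hmem : y ∈ above A x := (mem_above A).2 ⟨hg, (onCurve_iff' A).2 h0⟩
  refine fiber_deriv_ne_zero A h0 hg ?_
  rw [hred, derivative_mul, eval_add, eval_mul, eval_mul, hy, mul_zero, zero_add, eval_prod,
    Finset.prod_eq_zero hmem (by simp), zero_mul]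

lemma expand_apply (P : Kbar p × Kbar p) (f : (Kbar p)[X][X]) :
    expand A P f = (f.map (xmap P.1)).eval (branch A P) := by
  rw [expand, eval_map]; rfl

lemma expand_pK {P : Kbar p × Kbar p} (hg : Good A P) (hc : OnCurve A P) :
    expand A P (pK A) = 0 := by
  rw [expand_apply]
  exact (branch_spec A hg hc).1

lemma constantCoeff_expand (P : Kbar p × Kbar p) (f : (Kbar p)[X][X]) :
    PowerSeries.constantCoeff (expand A P f) = ev P f := by
  rw [expand_apply, ← eval₂_hom, constantCoeff_branch, ← eval_map, Polynomial.map_map,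
    constantCoeff_xmap]
  rfl

lemma jet_zero (P : Kbar p × Kbar p) (f : (Kbar p)[X][X]) : jet A P 0 f = ev P f := by
  rw [← constantCoeff_expand A]
  simp [jet]

end

end Vale.Agent.P042.Curve
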