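import Vale.Agent.P042.Curve.Series.Basic

/-!
The norm to the line of a function on the component: its values, its orders and its degree.
-/

open Finset Polynomial

namespace Vale.Agent.P042.Curve

open Vale.Agent.P042.Upper

noncomputable section

variable {p : ℕ} [Fact p.Prime]

lemma mem_idx {e M : ℕ} {ij : ℕ × ℕ} : ij ∈ idx e M ↔ ij.2 < e ∧ ij.1 + ij.2 ≤ M := by
  simp only [idx, Finset.mem_filter, Finset.mem_product, Finset.mem_range]
  omega

lemma coeff_mono (a : Kbar p) (i j i' j' : ℕ) :
    ((monomial j (monomial i a) : (Kbar p)[X][X]).coeff j').coeff i' =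
      if j = j' ∧ i = i' then a else 0 := by
  simp only [coeff_monomial]
  split_ifs with h1 h2 <;> simp_all [coeff_monomial]

lemma mem_LSpace {e M : ℕ} {f : (Kbar p)[X][X]} :
    f ∈ LSpace p e M ↔ ∀ i j, (e ≤ j ∨ M < i + j) → (f.coeff j).coeff i = 0 := by
  constructor
  · intro hf
    induction hf using Submodule.span_induction with
    | mem g hg =>
      obtain ⟨⟨a, b⟩, hab, rfl⟩ := hg
      intro i j hij
      have := mem_idx.1 (Finset.mem_coe.1 hab)
      rw [coeff_mono, if_neg (by simp only at this ⊢; omega)]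
    | zero => simp
    | add a b _ _ ha hb => intro i j hij; simp [ha i j hij, hb i j hij]
    | smul c a _ ha => intro i j hij; simp [ha i j hij]
  · intro h
    rw [f.as_sum_support]
    refine Submodule.sum_mem _ fun j _ => ?_
    rw [(f.coeff j).as_sum_support, map_sum]
    refine Submodule.sum_mem _ fun i hi => ?_
    have hij : (i, j) ∈ idx e M := by
      rw [mem_idx]
      by_contra hc
      exact mem_support_iff.1 hi (h i j (by simp only at hc ⊢; omega))
    have e1 : (monomial j (monomial i ((f.coeff j).coeff i)) : (Kbar p)[X][X]) =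
        (f.coeff j).coeff i • monomial j (monomial i 1) := by
      rw [Polynomial.smul_monomial, Polynomial.smul_monomial, smul_eq_mul, mul_one]
    rw [e1]
    exact Submodule.smul_mem _ _ (Submodule.subset_span ⟨(i, j), Finset.mem_coe.2 hij, rfl⟩)

lemma natDegree_lt_of_mem {e M : ℕ} {f : (Kbar p)[X][X]} (he : 1 ≤ e) (hf : f ∈ LSpace p e M) :
    f.natDegree ≤ e - 1 := by
  refine natDegree_le_iff_coeff_eq_zero.2 fun j hj => ?_
  ext i
  simpa using mem_LSpace.1 hf i j (Or.inl (by omega))

lemma natDegree_coeff_le_of_mem {e M : ℕ} {f : (Kbar p)[X][X]} (hf : f ∈ LSpace p e M) (j : ℕ) :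
    (f.coeff j).natDegree ≤ M - j :=
  natDegree_le_iff_coeff_eq_zero.2 fun i hi => mem_LSpace.1 hf i j (Or.inr (by omega))

variable (A : Comp p)

/-- The norm to the line. -/
def Nm (f : (Kbar p)[X][X]) : (Kbar p)[X] := resultant (pK A) f (edeg A) (edeg A - 1)

lemma resultant_map_prod {S : Type*} [CommRing S] [IsDomain S] (φ : (Kbar p)[X] →+* S)
    {f : (Kbar p)[X][X]} (hf : f.natDegree ≤ edeg A - 1) (hs : ((pK A).map φ).Splits) :
    φ (Nm A f) = (((pK A).map φ).roots.map fun Y => (f.map φ).eval Y).prod := by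
  have hm := (pK_monic A).map φ
  have hd : ((pK A).map φ).natDegree = edeg A := (pK_monic A).natDegree_map φ
  rw [Nm, ← resultant_map_map, ← hd, resultant_eq_prod_eval _ _ _ (natDegree_map_le.trans
    (hd ▸ hf)) hs, hm.leadingCoeff, one_pow, one_mul]

lemma eval_Nm {f : (Kbar p)[X][X]} (hf : f.natDegree ≤ edeg A - 1) (x : Kbar p) :
    (Nm A f).eval x = (((pK A).map (evalRingHom x)).roots.map fun y => ev (x, y) f).prod :=
  resultant_map_prod A (evalRingHom x) hf (IsAlgClosed.splits _)

/-- The norm near `x`: the good branches times a factor carried by the points which are not good. -/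
lemma xmap_Nm {f : (Kbar p)[X][X]} (hf : f.natDegree ≤ edeg A - 1) (x : Kbar p) :
    ∃ ρ, xmap x (Nm A f) = (∏ y ∈ above A x, expand A (x, y) f) * ρ ∧
      ((∀ y, (x, y) ∈ bad A → ev (x, y) f ≠ 0) → PowerSeries.constantCoeff ρ ≠ 0) := by
  classical
  obtain ⟨R, hRm, hR, hbad⟩ := exists_cofactor A x
  set G := ∏ y ∈ above A x, (X - C (branch A (x, y)))
  have hGm : G.Monic := monic_prod_of_monic _ _ fun y _ => monic_X_sub_C _
  have hdeg : G.natDegree + R.natDegree = edeg A := by
    rw [← hGm.natDegree_mul hRm, ← hR, (pK_monic A).natDegree_map]; rfl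
  have hn : (f.map (xmap x)).natDegree ≤ edeg A - 1 := natDegree_map_le.trans hf
  refine ⟨resultant R (f.map (xmap x)) R.natDegree (edeg A - 1), ?_, fun hnz => ?_⟩
  · rw [Nm, ← resultant_map_map, hR, ← hdeg, resultant_mul_left _ _ _ _ (hdeg.symm ▸ hn)]
    congr 1
    rw [resultant_eq_prod_eval _ _ _ (hdeg.symm ▸ hn) (Splits.prod fun y _ => Splits.X_sub_C _),
      hGm.leadingCoeff, one_pow, one_mul, roots_prod _ _ hGm.ne_zero]
    simp only [roots_X_sub_C, Multiset.bind_singleton, Multiset.map_map, Finset.prod_eq_multiset_prod,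
      Function.comp_def, expand_apply]
  · rw [← resultant_map_map, ← hRm.natDegree_map (PowerSeries.constantCoeff), Polynomial.map_map,
      constantCoeff_xmap, resultant_eq_prod_eval _ _ _ (natDegree_map_le.trans hf)
        (IsAlgClosed.splits _), (hRm.map _).leadingCoeff, one_pow, one_mul, Ne,
      Multiset.prod_eq_zero_iff, Multiset.mem_map]
    rintro ⟨y, hy, hy'⟩
    exact hnz y (hbad y ((mem_roots (hRm.map _).ne_zero).1 hy)) hy'

/-- Functions of small degree in `y` vanish on the component only if they are zero. -/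
lemma Nm_ne_zero {f : (Kbar p)[X][X]} (hf : f.natDegree ≤ edeg A - 1) (hf0 : f ≠ 0) :
    Nm A f ≠ 0 := by
  intro h0
  set F := FractionRing (Kbar p)[X]
  set φ : (Kbar p)[X] →+* F := algebraMap _ _
  have hinj : Function.Injective φ := IsFractionRing.injective _ _
  have hirr : Irreducible ((pK A).map φ) :=
    (pK_monic A).irreducible_iff_irreducible_map_fraction_map.1 A.irred
  have hdf : (f.map φ).natDegree = f.natDegree := natDegree_map_eq_of_injective hinj f
  have hdp : ((pK A).map φ).natDegree = edeg A := (pK_monic A).natDegree_map φ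
  have hnd : ¬ (pK A).map φ ∣ f.map φ := fun hd => by
    have := natDegree_le_of_dvd hd ((Polynomial.map_ne_zero_iff hinj).2 hf0)
    have := one_le_edeg A
    omega
  have hne := resultant_ne_zero _ _ (hirr.coprime_iff_not_dvd.2 hnd)
  apply hne
  have h1 : φ (Nm A f) = 0 := by rw [h0, map_zero]
  rw [Nm, ← resultant_map_map] at h1
  obtain ⟨c, hc⟩ := Nat.exists_eq_add_of_le hf
  rw [hc, resultant_add_right_deg _ _ _ _ _ hdf.le, ← hdp, coeff_natDegree,
    ((pK_monic A).map φ).leadingCoeff, one_pow, one_mul] at h1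
  rwa [hdf]

/-! ### Degrees -/

/-- The grading by total degree: `x ↦ T`, `y ↦ Z T`. -/
def tau : (Kbar p)[X][X] →+* (Kbar p)[X][X] := eval₂RingHom (eval₂RingHom (C.comp C) X) (C X * X)

lemma tau_monomial (i j : ℕ) (a : Kbar p) :
    tau (monomial j (monomial i a) : (Kbar p)[X][X]) = monomial (i + j) (monomial j a) := by
  simp only [tau, coe_eval₂RingHom, RingHom.comp_apply, ← C_mul_X_pow_eq_monomial,
    map_mul, map_pow, eval₂_X, eval₂_C]
  ring

lemma coeff_tau (f : (Kbar p)[X][X]) (n j : ℕ) :
    ((tau f).coeff n).coeff j = if j ≤ n then (f.coeff j).coeff (n - j) else 0 := by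
  induction f using Polynomial.induction_on' with
  | add a b ha hb => simp only [map_add, coeff_add, ha, hb]; split_ifs <;> simp
  | monomial j' c =>
    induction c using Polynomial.induction_on' with
    | add a b ha hb => simp only [map_add, coeff_add, ha, hb]; split_ifs <;> simp
    | monomial i a =>
      rw [tau_monomial, coeff_mono, coeff_mono]
      split_ifs <;> first | rfl | omega

lemma tau_injective : Function.Injective (tau (p := p)) := by
  refine (injective_iff_map_eq_zero _).2 fun f hf => ?_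
  ext j i
  have := coeff_tau f (i + j) j
  rw [hf, if_pos (Nat.le_add_left _ _), Nat.add_sub_cancel] at this
  simpa using this.symm

lemma tau_pK : (tau (pK A)).natDegree = edeg A ∧
    ∃ Q : (Kbar p)[X], (tau (pK A)).coeff (edeg A) * Q =
      C (hK A).leadingCoeff * (X ^ A.h.natDegree + 1) := by
  obtain ⟨Q, hQ⟩ := pK_dvd A
  set H := C (hK A) + (hK A).map C with hH
  set k := A.h.natDegree
  have hk : 2 ≤ k := A.two_le
  have hHd : H.natDegree = k := by
    rw [hH, natDegree_C_add, natDegree_map_eq_of_injective C_injective, natDegree_hK]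
  have hH0 : H ≠ 0 := fun h => by rw [h, natDegree_zero] at hHd; omega
  have hQ0 : Q ≠ 0 := fun h => hH0 (by rw [hQ, h, mul_zero])
  have hQd : edeg A + Q.natDegree = k := by
    rw [← hHd, hQ, natDegree_mul (pK_monic A).ne_zero hQ0, edeg]
  have hcoef : ∀ n j, ((tau H).coeff n).coeff j = if j ≤ n then
      ((if j = 0 then (hK A).coeff (n - j) else 0) + if n - j = 0 then (hK A).coeff j else 0)
      else 0 := by
    intro n j
    rw [coeff_tau, hH, coeff_add, coeff_C, coeff_map, coeff_add]
    simp only [coeff_C]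
    split_ifs <;> simp_all
  have hHup : (tau H).natDegree ≤ k := by
    refine natDegree_le_iff_coeff_eq_zero.2 fun n hn => ?_
    ext j
    rw [hcoef, coeff_zero]
    have hz : ∀ m, k < m → (hK A).coeff m = 0 := fun m hm =>
      coeff_eq_zero_of_natDegree_lt (by rw [natDegree_hK]; exact hm)
    split_ifs with h1 h2 h3 h4 <;> first
      | rfl
      | omega
      | simp [hz _ (show k < n - j by omega)]
      | simp [hz j (by omega)]
      | simp
  have hlow : ∀ (f : (Kbar p)[X][X]), f ≠ 0 → f.leadingCoeff.coeff 0 ≠ 0 →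
      f.natDegree ≤ (tau f).natDegree := by
    intro f _ hf
    refine le_natDegree_of_ne_zero fun h => hf ?_
    have := coeff_tau f f.natDegree f.natDegree
    rw [h, coeff_zero, if_pos le_rfl, Nat.sub_self] at this
    exact this.symm
  have hQlead : Q.leadingCoeff.coeff 0 ≠ 0 := by
    have h1 : H.leadingCoeff = C (hK A).leadingCoeff := by
      rw [leadingCoeff, hHd, hH, coeff_add, coeff_C, if_neg (by omega), coeff_map, zero_add,
        show k = (hK A).natDegree from (natDegree_hK A).symm, coeff_natDegree]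
    rw [hQ, leadingCoeff_mul, (pK_monic A).leadingCoeff, one_mul] at h1
    rw [h1, coeff_C_zero]
    exact leadingCoeff_ne_zero.2 (hK_ne_zero A)
  have h1 := hlow _ (pK_monic A).ne_zero (by rw [(pK_monic A).leadingCoeff]; simp)
  have h2 := hlow Q hQ0 hQlead
  have hmul : tau H = tau (pK A) * tau Q := by rw [hQ, map_mul]
  have hne : ∀ f : (Kbar p)[X][X], f ≠ 0 → tau f ≠ 0 := fun f hf h =>
    hf (tau_injective (h.trans (map_zero _).symm))
  have h3 := natDegree_mul (hne _ (pK_monic A).ne_zero) (hne _ hQ0)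
  rw [← hmul] at h3
  have he : (pK A).natDegree = edeg A := rfl
  refine ⟨by omega, (tau Q).coeff (tau Q).natDegree, ?_⟩
  have h4 : (tau (pK A)).natDegree = edeg A := by omega
  have h5 : (tau H).natDegree = k := by omega
  rw [← h4, coeff_natDegree, coeff_natDegree, ← leadingCoeff_mul, ← hmul, leadingCoeff, h5]
  ext j
  rw [hcoef, coeff_C_mul, coeff_add, coeff_X_pow, coeff_one]
  have hz : ∀ m, k < m → (hK A).coeff m = 0 := fun m hm =>
    coeff_eq_zero_of_natDegree_lt (by rw [natDegree_hK]; exact hm)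
  have hl : (hK A).coeff k = (hK A).leadingCoeff := by rw [leadingCoeff, natDegree_hK]
  rcases lt_trichotomy j k with h | h | h
  · rcases Nat.eq_zero_or_pos j with rfl | hj
    · simp [hl, show k ≠ 0 by omega, show (0 : ℕ) ≠ k by omega]
    · simp [h.le, h.ne, show j ≠ 0 by omega, show k - j ≠ 0 by omega]
  · rw [h]; simp [hl, show k ≠ 0 by omega]
  · simp [show ¬ j ≤ k by omega, show j ≠ k by omega, show j ≠ 0 by omega]

lemma natDegree_coeff_pK (j : ℕ) : ((pK A).coeff j).natDegree ≤ edeg A - j := by
  refine natDegree_le_iff_coeff_eq_zero.2 fun i hi => ?_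
  have := coeff_tau (pK A) (i + j) j
  rw [if_pos (Nat.le_add_left _ _), Nat.add_sub_cancel,
    coeff_eq_zero_of_natDegree_lt (p := tau (pK A)) (by rw [(tau_pK A).1]; omega)] at this
  simpa using this.symm

/-- Weighted reversal: the coefficient of `Z ^ j` becomes its reversal of length `m - j`. -/
def flip (m : ℕ) (f : (Kbar p)[X][X]) : (Kbar p)[X][X] :=
  ∑ j ∈ range (f.natDegree + 1), monomial j (reflect (m - j) (f.coeff j))

lemma coeff_flip (m : ℕ) (f : (Kbar p)[X][X]) (j : ℕ) :
    (flip m f).coeff j = reflect (m - j) (f.coeff j) := by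
  simp only [flip, finsetSum_coeff, coeff_monomial, Finset.sum_ite_eq', Finset.mem_range]
  split_ifs with h
  · rfl
  · rw [coeff_eq_zero_of_natDegree_lt (by omega : f.natDegree < j), reflect_zero]

lemma natDegree_flip_le (m : ℕ) (f : (Kbar p)[X][X]) : (flip m f).natDegree ≤ f.natDegree :=
  natDegree_le_iff_coeff_eq_zero.2 fun j hj => by
    rw [coeff_flip, coeff_eq_zero_of_natDegree_lt hj, reflect_zero]

lemma flip_monic : (flip (edeg A) (pK A)).Monic ∧ (flip (edeg A) (pK A)).natDegree = edeg A := by
  have h1 : (flip (edeg A) (pK A)).coeff (edeg A) = 1 := by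
    rw [coeff_flip, Nat.sub_self, show (pK A).coeff (edeg A) = 1 from (pK_monic A).leadingCoeff]
    exact (reflect_C (1 : Kbar p) 0).trans (by simp)
  have h2 : (flip (edeg A) (pK A)).natDegree = edeg A :=
    le_antisymm (natDegree_flip_le _ _) (le_natDegree_of_ne_zero (by rw [h1]; exact one_ne_zero))
  exact ⟨by rw [Monic, leadingCoeff, h2, h1], h2⟩

/-- The directions at infinity are simple. -/
lemma top_roots_nodup : ((flip (edeg A) (pK A)).map (evalRingHom 0)).roots.Nodup := by
  classical
  have e : (flip (edeg A) (pK A)).map (evalRingHom 0) = (tau (pK A)).coeff (edeg A) := by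
    ext j
    rw [coeff_map, coeff_flip, coeff_tau, coe_evalRingHom, ← coeff_zero_eq_eval_zero, coeff_reflect,
      revAt_le (Nat.zero_le _), Nat.sub_zero]
    split_ifs with h
    · rfl
    · rw [coeff_eq_zero_of_natDegree_lt (p := pK A) (by rw [← edeg]; omega), coeff_zero]
  obtain ⟨Q, hQ⟩ := (tau_pK A).2
  have hsep : (X ^ A.h.natDegree - C (-1) : (Kbar p)[X]).Separable := by
    refine separable_X_pow_sub_C (-1) ?_ (by simp)
    rw [Ne, CharP.cast_eq_zero_iff (Kbar p) p]
    intro h
    exact absurd (Nat.le_of_dvd (by have := A.two_le; omega) h) (by have := A.deg_lt; omega)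
  rw [C_neg, sub_neg_eq_add, C_1] at hsep
  rw [e]
  refine nodup_roots (hsep.of_dvd ?_)
  refine (isUnit_C.2 (isUnit_iff_ne_zero.2 (leadingCoeff_ne_zero.2 (hK_ne_zero A)))).dvd_mul_left.1
    ⟨Q, hQ.symm⟩

lemma eval_flip {m : ℕ} {f : (Kbar p)[X][X]} (hf : ∀ j, (f.coeff j).natDegree ≤ m - j)
    {u : Kbar p} (hu : u ≠ 0) (j : ℕ) :
    ((flip m f).map (evalRingHom u)).coeff j = (f.coeff j).eval u⁻¹ * u ^ (m - j) := by
  rw [coeff_map, coeff_flip, coe_evalRingHom]
  have := invertibleOfNonzero (inv_ne_zero hu)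
  have := eval₂_reflect_mul_pow (RingHom.id (Kbar p)) u⁻¹ (m - j) (f.coeff j) (hf j)
  rw [invOf_eq_inv, inv_inv, eval₂_id, eval₂_id, inv_pow] at this
  rw [← this, mul_assoc, inv_mul_cancel₀ (pow_ne_zero _ hu), mul_one]

/-- The norm near infinity. -/
def NmInf (M : ℕ) (f : (Kbar p)[X][X]) : (Kbar p)[X] :=
  resultant (flip (edeg A) (pK A)) (flip M f) (edeg A) (edeg A - 1)

lemma NmInf_map {S : Type*} [CommRing S] [IsDomain S] (φ : (Kbar p)[X] →+* S) {M : ℕ}
    {f : (Kbar p)[X][X]} (hf : f.natDegree ≤ edeg A - 1)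
    (hs : ((flip (edeg A) (pK A)).map φ).Splits) :
    φ (NmInf A M f) = (((flip (edeg A) (pK A)).map φ).roots.map fun Y =>
      ((flip M f).map φ).eval Y).prod := by
  obtain ⟨hm, hd⟩ := flip_monic A
  have hd' : ((flip (edeg A) (pK A)).map φ).natDegree = edeg A := by rw [hm.natDegree_map, hd]
  have h := resultant_eq_prod_eval ((flip (edeg A) (pK A)).map φ) ((flip M f).map φ) (edeg A - 1)
    (natDegree_map_le.trans ((natDegree_flip_le _ _).trans hf)) hs
  rw [hd', (hm.map φ).leadingCoeff, one_pow, one_mul] at h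
  rw [NmInf, ← resultant_map_map, h]

lemma eval_NmInf {M : ℕ} {f : (Kbar p)[X][X]} (hf : f ∈ LSpace p (edeg A) M) {u : Kbar p}
    (hu : u ≠ 0) : (NmInf A M f).eval u = u ^ (edeg A * M) * (Nm A f).eval u⁻¹ := by
  have hfd := natDegree_lt_of_mem (one_le_edeg A) hf
  rw [eval_Nm A hfd]
  refine (NmInf_map A (evalRingHom u) hfd (IsAlgClosed.splits _)).trans ?_
  have hroots : ((flip (edeg A) (pK A)).map (evalRingHom u)).roots =
      ((pK A).map (evalRingHom u⁻¹)).roots.map (u * ·) := by
    rw [← roots_scaleRoots _ hu.isUnit]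
    congr 1
    ext j
    rw [eval_flip (natDegree_coeff_pK A) hu, coeff_scaleRoots, coeff_map, (pK_monic A).natDegree_map]
    rfl
  have hcard : Multiset.card ((pK A).map (evalRingHom u⁻¹)).roots = edeg A := by
    rw [← (IsAlgClosed.splits _).natDegree_eq_card_roots, (pK_monic A).natDegree_map]
    rfl
  rw [hroots, Multiset.map_map, mul_comm (edeg A), pow_mul, ← hcard]
  have hpt : ∀ y : Kbar p, ((flip M f).map (evalRingHom u)).eval (u * y) =
      u ^ M * ev (u⁻¹, y) f := by
    intro y
    rw [ev]
    simp only [LinearMap.coe_mk, AddHom.coe_mk]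
    rw [eval_eq_sum_range' (n := f.natDegree + 1)
        (Nat.lt_succ_of_le (natDegree_map_le.trans (natDegree_flip_le _ _))),
      eval_eq_sum_range' (n := f.natDegree + 1) (Nat.lt_succ_of_le natDegree_map_le), Finset.mul_sum]
    refine Finset.sum_congr rfl fun j _ => ?_
    rw [eval_flip (natDegree_coeff_le_of_mem hf) hu, coeff_map, coe_evalRingHom]
    rcases le_or_gt j M with hj | hj
    · rw [mul_pow, show u ^ M = u ^ (M - j) * u ^ j by rw [← pow_add, Nat.sub_add_cancel hj]]
      ring
    · have : f.coeff j = 0 := by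
        ext i; simpa using mem_LSpace.1 hf i j (Or.inr (by omega))
      simp [this]
  simp only [Function.comp_def, hpt]
  rw [Multiset.prod_map_mul, Multiset.map_const', Multiset.prod_replicate]

/-- The degree of the norm, and the norm at infinity. -/
lemma NmInf_eq {M : ℕ} {f : (Kbar p)[X][X]} (hf : f ∈ LSpace p (edeg A) M) :
    (Nm A f).natDegree ≤ edeg A * M ∧ NmInf A M f = reflect (edeg A * M) (Nm A f) := by
  set N := Nm A f
  set D := N.natDegree
  have key : NmInf A M f * X ^ D = X ^ (edeg A * M) * reflect D N := by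
    refine eq_of_infinite_eval_eq _ _ ((Set.finite_singleton (0 : Kbar p)).infinite_compl.mono ?_)
    intro u hu
    have hu' : u ≠ 0 := fun h => hu (by simp [h])
    have := invertibleOfNonzero (inv_ne_zero hu')
    have h1 := eval₂_reflect_mul_pow (RingHom.id (Kbar p)) u⁻¹ D N le_rfl
    rw [invOf_eq_inv, inv_inv, eval₂_id, eval₂_id, inv_pow] at h1
    simp only [Set.mem_ofPred_eq, eval_mul, eval_pow, eval_X, eval_NmInf A hf hu']
    rw [← h1]
    field_simp
  rcases eq_or_ne N 0 with h0 | h0
  · refine ⟨by simp [D, h0], ?_⟩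
    rw [h0, reflect_zero]
    rw [h0, reflect_zero, mul_zero] at key
    exact (mul_eq_zero.1 key).resolve_right (pow_ne_zero _ X_ne_zero)
  have hlc : (reflect D N).coeff 0 = N.leadingCoeff := by
    rw [coeff_reflect, revAt_le (Nat.zero_le _), Nat.sub_zero]; rfl
  have hD : D ≤ edeg A * M := by
    by_contra hlt
    have := congrArg (fun q => coeff q (edeg A * M)) key
    simp only [coeff_mul_X_pow', coeff_X_pow_mul', le_refl, if_true, Nat.sub_self, hlc,
      if_neg hlt] at this
    exact leadingCoeff_ne_zero.2 h0 this.symm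
  refine ⟨hD, ?_⟩
  ext i
  have h1 := congrArg (fun q => coeff q (i + D)) key
  simp only [coeff_mul_X_pow, coeff_X_pow_mul'] at h1
  rw [h1, coeff_reflect]
  split_ifs with h
  · rw [coeff_reflect]
    rcases le_or_gt i (edeg A * M) with hi | hi
    · rw [revAt_le (show i + D - edeg A * M ≤ D by omega), revAt_le hi]
      congr 1
      omega
    · have h2 : D < i + D - edeg A * M := by omega
      rw [revAt_eq_self_of_lt h2, revAt_eq_self_of_lt hi, coeff_eq_zero_of_natDegree_lt h2,
        coeff_eq_zero_of_natDegree_lt (show N.natDegree < i by omega)]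
  · rw [coeff_reflect, revAt_le (show i ≤ edeg A * M by omega),
      coeff_eq_zero_of_natDegree_lt (show N.natDegree < edeg A * M - i by omega)]

end

end Vale.Agent.P042.Curve
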