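import Vale.Agent.P042.Curve.Series.Norm

/-!
The cycle of zeros at the good points of a function, against the roots of its norm.
-/

open Finset Polynomial

namespace Vale.Agent.P042.Curve

open Vale.Agent.P042.Upper

noncomputable section

variable {p : ℕ} [Fact p.Prime] (A : Comp p)

lemma order_xmap {q : (Kbar p)[X]} (hq : q ≠ 0) (x : Kbar p) :
    (xmap x q).order = q.rootMultiplicity x := by
  obtain ⟨q', hq', hnd⟩ := exists_eq_pow_rootMultiplicity_mul_and_not_dvd q hq x
  conv_lhs => rw [hq']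
  rw [map_mul, map_pow, PowerSeries.order_mul, show xmap x (X - C x) = PowerSeries.X by simp [xmap],
    PowerSeries.order_X_pow, PowerSeries.order_zero_of_unit, add_zero]
  rw [PowerSeries.isUnit_iff_constantCoeff, isUnit_iff_ne_zero, ← RingHom.comp_apply,
    constantCoeff_xmap]
  exact fun h => hnd (dvd_iff_isRoot.2 h)

/-- The order of vanishing along the branch. -/
def ord (P : Kbar p × Kbar p) (f : (Kbar p)[X][X]) : ℕ := (expand A P f).order.toNat

open scoped Classical in
/-- The zeros at good points, with multiplicity. -/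
def zeros (f : (Kbar p)[X][X]) : Multiset (Kbar p × Kbar p) :=
  ∑ x ∈ (Nm A f).roots.toFinset, ∑ y ∈ above A x, Multiset.replicate (ord A (x, y) f) (x, y)

variable {A} {f : (Kbar p)[X][X]} {M : ℕ}

lemma expand_ne_zero (hf : f ∈ LSpace p (edeg A) M) (hf0 : f ≠ 0) {P : Kbar p × Kbar p}
    (hg : Good A P) (hc : OnCurve A P) : expand A P f ≠ 0 := by
  intro h
  have hd := natDegree_lt_of_mem (one_le_edeg A) hf
  obtain ⟨ρ, hρ, -⟩ := xmap_Nm A hd P.1
  have h0 : xmap P.1 (Nm A f) = 0 := by
    rw [hρ, Finset.prod_eq_zero ((mem_above A).2 ⟨hg, hc⟩) h, zero_mul]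
  have := order_xmap (Nm_ne_zero A hd hf0) P.1
  rw [h0, PowerSeries.order_zero] at this
  exact ENat.top_ne_natCast _ this

lemma coe_ord (hf : f ∈ LSpace p (edeg A) M) (hf0 : f ≠ 0) {P : Kbar p × Kbar p}
    (hg : Good A P) (hc : OnCurve A P) : (ord A P f : ℕ∞) = (expand A P f).order :=
  PowerSeries.coe_toNat_order (expand_ne_zero hf hf0 hg hc)

lemma sum_ord_above (hf : f ∈ LSpace p (edeg A) M) (hf0 : f ≠ 0) (x : Kbar p) :
    ∑ y ∈ above A x, ord A (x, y) f ≤ (Nm A f).rootMultiplicity x ∧
    ((∀ P ∈ bad A, ev P f ≠ 0) →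
      ∑ y ∈ above A x, ord A (x, y) f = (Nm A f).rootMultiplicity x) := by
  have hd := natDegree_lt_of_mem (one_le_edeg A) hf
  obtain ⟨ρ, hρ, hunit⟩ := xmap_Nm A hd x
  have h := order_xmap (Nm_ne_zero A hd hf0) x
  rw [hρ, PowerSeries.order_mul, PowerSeries.order_prod, ← Finset.sum_congr rfl fun y hy =>
    coe_ord hf hf0 ((mem_above A).1 hy).1 ((mem_above A).1 hy).2, ← Nat.cast_sum] at h
  refine ⟨Nat.cast_le.1 (h ▸ le_self_add), fun hnb => ?_⟩
  rw [PowerSeries.order_zero_of_unit (PowerSeries.isUnit_iff_constantCoeff.2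
    (isUnit_iff_ne_zero.2 (hunit fun y hy => hnb _ hy))), add_zero] at h
  exact_mod_cast h

open scoped Classical in
lemma count_zeros (hf : f ∈ LSpace p (edeg A) M) (hf0 : f ≠ 0) (P : Kbar p × Kbar p) :
    (zeros A f).count P = if Good A P ∧ OnCurve A P then ord A P f else 0 := by
  classical
  obtain ⟨x, y⟩ := P
  have h1 : (zeros A f).count (x, y) = if x ∈ (Nm A f).roots.toFinset ∧ y ∈ above A x
      then ord A (x, y) f else 0 := by
    simp only [zeros, Multiset.count_sum', Multiset.count_replicate, Prod.mk.injEq, ite_and,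
      Finset.sum_ite_irrel, Finset.sum_const_zero, Finset.sum_ite_eq']
  rw [h1]
  by_cases hgc : Good A (x, y) ∧ OnCurve A (x, y)
  · rw [if_pos hgc]
    split_ifs with h
    · rfl
    · by_contra hne
      apply h
      refine ⟨?_, (mem_above A).2 hgc⟩
      rw [Multiset.mem_toFinset, ← Multiset.count_pos, count_roots]
      refine lt_of_lt_of_le ?_ (sum_ord_above hf hf0 x).1
      exact lt_of_lt_of_le (Nat.pos_of_ne_zero (Ne.symm hne))
        (Finset.single_le_sum (f := fun y => ord A (x, y) f) (fun _ _ => Nat.zero_le _)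
          ((mem_above A).2 hgc))
  · rw [if_neg hgc, if_neg fun h => hgc ((mem_above A).1 h.2)]

lemma zeros_good (hf : f ∈ LSpace p (edeg A) M) (hf0 : f ≠ 0) {P : Kbar p × Kbar p}
    (hP : P ∈ zeros A f) : Good A P ∧ OnCurve A P := by
  classical
  by_contra h
  rw [← Multiset.count_pos, count_zeros hf hf0, if_neg h] at hP
  exact lt_irrefl _ hP

open scoped Classical in
lemma le_zeros_iff (hf : f ∈ LSpace p (edeg A) M) (hf0 : f ≠ 0)
    {E : Multiset (Kbar p × Kbar p)} (hE : ∀ P ∈ E, Good A P ∧ OnCurve A P) :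
    E ≤ zeros A f ↔ ∀ P, ∀ i < E.count P, jet A P i f = 0 := by
  rw [Multiset.le_iff_count]
  refine forall_congr' fun P => ?_
  by_cases hP : P ∈ E
  · obtain ⟨hg, hc⟩ := hE P hP
    rw [count_zeros hf hf0, if_pos ⟨hg, hc⟩]
    refine ⟨fun h i hi => ?_, fun h => ?_⟩
    · exact PowerSeries.coeff_of_lt_order_toNat _ (lt_of_lt_of_le hi h)
    · rw [← ENat.natCast_le_natCast, coe_ord hf hf0 hg hc]
      exact PowerSeries.nat_le_order _ _ h
  · simp [Multiset.count_eq_zero.2 hP]

/-- The abscissae of the zeros are roots of the norm. -/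
lemma map_fst_zeros_le (hf : f ∈ LSpace p (edeg A) M) (hf0 : f ≠ 0) :
    (zeros A f).map Prod.fst ≤ (Nm A f).roots ∧ ((∀ P ∈ bad A, ev P f ≠ 0) →
      (zeros A f).map Prod.fst = (Nm A f).roots) := by
  classical
  have hc : ∀ x, ((zeros A f).map Prod.fst).count x =
      if x ∈ (Nm A f).roots.toFinset then ∑ y ∈ above A x, ord A (x, y) f else 0 := by
    intro x
    simp only [zeros, ← Multiset.coe_mapAddMonoidHom, map_sum]
    simp only [Multiset.coe_mapAddMonoidHom, Multiset.map_replicate, Multiset.count_sum',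
      Multiset.count_replicate, Finset.sum_ite_irrel, Finset.sum_const_zero, Finset.sum_ite_eq']
  constructor
  · refine Multiset.le_iff_count.2 fun x => ?_
    rw [hc, count_roots]
    split_ifs
    · exact (sum_ord_above hf hf0 x).1
    · exact Nat.zero_le _
  · intro hnb
    refine Multiset.ext.2 fun x => ?_
    rw [hc]
    split_ifs with h
    · rw [(sum_ord_above hf hf0 x).2 hnb, count_roots]
    · exact (Multiset.count_eq_zero.2 fun h' => h (Multiset.mem_toFinset.2 h')).symm

lemma card_zeros (hf : f ∈ LSpace p (edeg A) M) (hf0 : f ≠ 0) :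
    Multiset.card (zeros A f) ≤ edeg A * M := by
  rw [← Multiset.card_map Prod.fst]
  exact (Multiset.card_le_card (map_fst_zeros_le hf hf0).1).trans
    ((card_roots' _).trans (NmInf_eq A hf).1)

/-- No zero at infinity and none at the points which are not good: exactly `e M` zeros. -/
lemma card_zeros_eq (hf : f ∈ LSpace p (edeg A) M) (hf0 : f ≠ 0)
    (hb : ∀ P ∈ bad A, ev P f ≠ 0) (htop : (Nm A f).coeff (edeg A * M) ≠ 0) :
    Multiset.card (zeros A f) = edeg A * M := by
  rw [← Multiset.card_map Prod.fst, (map_fst_zeros_le hf hf0).2 hb,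
    ← (IsAlgClosed.splits _).natDegree_eq_card_roots]
  exact le_antisymm (NmInf_eq A hf).1 (le_natDegree_of_ne_zero htop)

end

end Vale.Agent.P042.Curve
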